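import Vale.Agent.P218CO.Op
import Vale.Agent.P218MP.MP2

/-! # Decoupling of the collar system on the disc -/

open Set Filter Metric Topology
open scoped ContDiff

noncomputable section

set_option linter.unusedSectionVars false
set_option linter.unusedVariables false

namespace Vale.Agent.P218CD

open Vale.Agent.P218VA Vale.Agent.P218MP Vale.Agent.P218CO
open Vale.Agent.P218GA (pol dw dth)

lemma pj_ofReal {f : ℝ × ℝ → ℝ} {p : ℝ × ℝ} (hf : ContDiffAt ℝ 2 f p) :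
    pj (fun q => (f q : ℂ)) p = (((f p : ℂ), ((dw f p : ℝ) : ℂ), ((dth f p : ℝ) : ℂ)),
      (((dw (dw f) p : ℝ) : ℂ), ((dth (dw f) p : ℝ) : ℂ), ((dth (dth f) p : ℝ) : ℂ))) :=
  cj_clm Complex.ofRealCLM hf

lemma u1j_smul (s w : ℝ) (t : ℂ) (a b : T3 ℂ) : u1j s w (t • a) (t • b) = t • u1j s w a b := by
  simp only [u1j, jm1, Prod.ext_iff, Prod.smul_fst, Prod.smul_snd, Prod.fst_add, Prod.snd_add,
    smul_eq_mul]
  refine ⟨?_, ?_, ?_⟩ <;> ring

lemma re_lin (L : T3 ℂ →L[ℂ] ℂ) (a b c : ℝ) : (L ((a : ℂ), (b : ℂ), (c : ℂ))).re =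
    (L (1, 0, 0)).re * a + (L (0, 1, 0)).re * b + (L (0, 0, 1)).re * c := by
  have : (((a : ℂ), (b : ℂ), (c : ℂ)) : T3 ℂ) =
      (a : ℂ) • (1, 0, 0) + (b : ℂ) • (0, 1, 0) + (c : ℂ) • (0, 0, 1) := by simp
  rw [this, map_add, map_add, map_smul, map_smul, map_smul]
  simp only [smul_eq_mul, Complex.add_re, Complex.re_ofReal_mul]
  ring

lemma re_pair (a : T3 ℂ) (x y z : ℝ) : (pair a ((x : ℂ), (y : ℂ), (z : ℂ))).re =
    a.1.re * x + a.2.1.re * y + a.2.2.re * z := by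
  simp only [pair, Complex.add_re, Complex.re_mul_ofReal]

lemma eq_of_lin {c k : ℂ} {f : ℂ → ℂ} (h : HasDerivAt f 0 0) (e : ∀ t, f t = c + t * k) :
    k = 0 := by
  have h1 : HasDerivAt f k 0 := by
    rw [show f = fun t => c + t * k from funext e]
    simpa using ((hasDerivAt_id (0 : ℂ)).mul_const k).const_add c
  exact h1.unique h

/-- the linearised equation on the end below the level `s + 5` -/
lemma end_eq {o : EndOp} {s : ℝ} (ho : o.Good s) {p : ℝ × ℝ} (hp : s < p.1) (hp' : p.1 ≤ s + 5)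
    {jv : T3 ℂ} {jμ : J2 ℂ} (hu : u1j s p.1 jv jμ.1 = 0)
    (h : HasDerivAt (fun t : ℂ => o.END s p (t • jv) (t • jμ)) 0 0) :
    pair (o.a p 0) jμ.2 + (1 - rh s p.1) * fderiv ℂ (o.b p) 0 jμ.1 = 0 := by
  have hb : DifferentiableAt ℂ (o.b p) 0 := (ho.mixb p hp).hol.self_of_nhds
  have h1 : HasDerivAt (fun t : ℂ => o.b p (t • jμ.1)) (fderiv ℂ (o.b p) 0 jμ.1) 0 := by
    have h2 : HasDerivAt (fun t : ℂ => t • jμ.1) jμ.1 0 := by
      simpa using (hasDerivAt_id (0 : ℂ)).smul_const jμ.1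
    exact HasFDerivAt.comp_hasDerivAt (l := o.b p) 0 (by simpa using hb.hasFDerivAt) h2
  have h3 := ((((hasDerivAt_id (0 : ℂ)).mul_const (pair (o.a p 0) jμ.2)).const_add
    (pair (o.a p 0) (o.H p) + rh s p.1 * o.b p 0)).add (h1.const_mul (1 - rh s p.1)))
  rw [one_mul] at h3
  refine h3.unique (h.congr_of_eventuallyEq (Eventually.of_forall fun t => ?_))
  simp only [EndOp.END, Prod.smul_fst, Prod.smul_snd, u1j_smul, hu, smul_zero, c2_lo hp', jcm_one,
    add_zero, pair_add, pair_smul, Pi.add_apply, id]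
  ring

/-- the equation on the collar above the level `s + 5` -/
lemma col_eq (o : EndOp) {s : ℝ} {p : ℝ × ℝ} (hp : s + 5 ≤ p.1) {jv : J2 ℂ} {jμ : T3 ℂ}
    (hu : u1j s p.1 jv.1 jμ = 0) (t : ℂ) :
    o.COL s p (t • jv) (t • jμ) = t * pair (o.a p 0) jv.2 := by
  simp only [EndOp.COL, Prod.smul_fst, Prod.smul_snd, u1j_smul, hu, smul_zero,
    c1_hi (show s + 4 ≤ p.1 by linarith), rh_hi hp, jcm_one, add_zero, sub_self, zero_smul,
    zero_add, pair_smul, zero_mul, sub_zero]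

/-- the Laplacian in polar coordinates -/
lemma lap_pol {g : E2 → ℝ} {p : ℝ × ℝ} (hg : ContDiffAt ℝ 2 g (pol p)) :
    dw (dw fun q => g (pol q)) p + dth (dth fun q => g (pol q)) p =
      Real.exp (-p.1) ^ 2 * (pd (pd g u1) u1 (pol p) + pd (pd g u2) u2 (pol p)) := by
  rw [dw_dw_comp_pol hg, dth_dth_comp_pol hg, pd_pd_eq hg, pd_pd_eq hg, ← norm_pol, norm_sq_E2]
  generalize fderiv ℝ (fderiv ℝ g) (pol p) = B
  generalize fderiv ℝ g (pol p) (pol p) = a
  generalize pol p = y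
  have e1 := E2_decomp y
  have e2 := E2_decomp (Jr y)
  rw [Jr_zero, Jr_one] at e2
  rw [e2]
  generalize y 0 = y0 at e1 ⊢
  generalize y 1 = y1 at e1 ⊢
  subst e1
  simp only [map_add, map_smul, add_apply, smul_apply, smul_eq_mul]
  ring

lemma lop_congr {u v : ℝ × ℝ → ℝ} {p : ℝ × ℝ} (h : u =ᶠ[𝓝 p] v) (a11 a12 a22 b1 b2 c : ℝ) :
    lop a11 a12 a22 b1 b2 c u p = lop a11 a12 a22 b1 b2 c v p := by
  simp only [lop, dw, dth]
  rw [pd_congr h, pd_congr h, h.self_of_nhds, pd_congr (pd_congr' h _), pd_congr (pd_congr' h _),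
    pd_congr (pd_congr' h _)]

lemma bar_num {s w : ℝ} (h : s < w) (h' : w ≤ s + 5) :
    1 / 300 < 9 / 10 * Real.exp s * Real.exp (-w) ∧ 9 / 10 * Real.exp s * Real.exp (-w) < 1 := by
  rw [mul_assoc, ← Real.exp_add]
  have h1 : Real.exp (s + -w) < 1 := Real.exp_lt_one_iff.2 (by linarith)
  have h2 : Real.exp 5 ≤ 3 ^ 5 := by
    rw [show (5 : ℝ) = (5 : ℕ) * 1 by norm_num, Real.exp_nat_mul]
    exact pow_le_pow_left₀ (Real.exp_pos _).le Real.exp_one_lt_three.le 5
  have h3 : 1 ≤ Real.exp (s + -w) * Real.exp 5 := by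
    rw [← Real.exp_add]; exact Real.one_le_exp (by linarith)
  have h4 := Real.exp_pos (s + -w)
  constructor <;> nlinarith

/-- **Decoupling on the disc.** -/
theorem disc_zero {o : EndOp} {s : ℝ} (ho : o.Good s) {g : E2 → ℝ} {μ : ℝ × ℝ → ℝ}
    (hg : ∀ y ∈ closedBall (0 : E2) (Real.exp (-s)), ContDiffAt ℝ 2 g y)
    (hμ : LinEnd o s (fun p => (pj (fun q => (g (pol q) : ℂ)) p).1) fun p => (μ p : ℂ))
    (hb : ∀ θ, μ (s, θ) = 0)
    (hgl : ∀ p : ℝ × ℝ, s < p.1 → (1 - st (s + 5) p.1) * g (pol p) + st (s + 3) p.1 * μ p = 0)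
    (hcol : ∀ p : ℝ × ℝ, s + 3 ≤ p.1 → HasDerivAt (fun t : ℂ =>
      ((1 - st (s + 6) p.1 : ℝ) : ℂ) * o.COL s p (t • pj (fun q => (g (pol q) : ℂ)) p)
        (t • (pj (fun q => (μ q : ℂ)) p).1) + (st (s + 6) p.1 : ℝ) *
        (t * ((cj u1 u2 (fun y => (g y : ℂ)) (pol p)).2.1 +
          (cj u1 u2 (fun y => (g y : ℂ)) (pol p)).2.2.2))) 0 0) :
    (∀ y ∈ closedBall (0 : E2) (Real.exp (-s)), g y = 0) ∧ ∀ p : ℝ × ℝ, s ≤ p.1 → μ p = 0 := by
  classical
  have g1 : ∀ p : ℝ × ℝ, s < p.1 → ContDiffAt ℝ 2 g (pol p) := fun p hp =>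
    hg _ (ball_subset_closedBall (pol_mem_ball.2 hp))
  have g2 : ∀ p : ℝ × ℝ, s < p.1 → ContDiffAt ℝ 2 (fun q => g (pol q)) p := fun p hp =>
    (g1 p hp).comp p contDiff_pol.contDiffAt
  have m2 : ∀ p : ℝ × ℝ, s < p.1 → ContDiffAt ℝ 2 μ p := fun p hp =>
    Complex.reCLM.contDiff.contDiffAt.comp p (hμ.cd p hp)
  have ev : ∀ {p : ℝ × ℝ} {a : ℝ}, a < p.1 → ∀ᶠ q : ℝ × ℝ in 𝓝 p, a < q.1 := fun h =>
    continuous_fst.continuousAt.eventually (eventually_gt_nhds h)
  have ev' : ∀ {p : ℝ × ℝ} {a : ℝ}, p.1 < a → ∀ᶠ q : ℝ × ℝ in 𝓝 p, q.1 < a := fun h =>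
    continuous_fst.continuousAt.eventually (eventually_lt_nhds h)
  have hu : ∀ p : ℝ × ℝ, s < p.1 → u1j s p.1 (pj (fun q => (g (pol q) : ℂ)) p).1
      (pj (fun q => (μ q : ℂ)) p).1 = 0 := fun p hp => by
    rw [← glueJ_fst, ← pj_glue (f := fun q => (g (pol q) : ℂ))
      (Complex.ofRealCLM.contDiff.contDiffAt.comp p (g2 p hp)) (hμ.cd p hp), pj, cj_congr (g := fun _ => 0), cj_zero]
    · rfl
    · filter_upwards [ev hp] with q hq
      exact_mod_cast hgl q hq
  let ν : ℝ × ℝ → ℝ := fun p => -μ (max p.1 s, p.2)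
  have n1 : ∀ p : ℝ × ℝ, s ≤ p.1 → ν p = -μ p := fun p hp => by simp only [ν, max_eq_left hp]
  have n2 : Per ν := fun w θ => congrArg (fun z : ℂ => -z.re) (hμ.per (max w s) θ)
  have n3 : Continuous ν := (Complex.continuous_re.comp (hμ.cont.comp_continuous
    (f := fun p : ℝ × ℝ => (max p.1 s, p.2)) (by fun_prop)
    fun p => ⟨mem_Ici.2 (le_max_right _ _), trivial⟩)).neg
  let G : E2 → ℝ := fun y => if Real.exp (-(s + 4)) < ‖y‖ then ν (lp y) else g y
  have hB : ∀ y, ‖y‖ ≤ Real.exp (-(s + 4)) → G y = g y := fun y hy => if_neg (not_lt.2 hy)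
  have hB' : ∀ p : ℝ × ℝ, s + 4 ≤ p.1 → G (pol p) = g (pol p) := fun p hp =>
    hB _ (by rw [norm_pol]; exact Real.exp_le_exp.2 (by linarith))
  have hA' : ∀ p : ℝ × ℝ, p.1 ≤ s + 5 → G (pol p) = ν p := fun p hp => by
    rcases lt_or_ge p.1 (s + 4) with h | h
    · exact (if_pos (by rw [norm_pol]; exact Real.exp_lt_exp.2 (by linarith))).trans (n2.lp_pol p)
    · have := hgl p (by linarith)
      rw [st_zero hp, st_one (by linarith)] at this
      rw [hB' p h, n1 p (by linarith)]; linarith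
  have hB0 : ∀ y, ‖y‖ < Real.exp (-(s + 4)) → G =ᶠ[𝓝 y] g := fun y hy => by
    filter_upwards [isOpen_ball.mem_nhds (mem_ball_zero_iff.2 hy)] with z hz
    exact hB z (mem_ball_zero_iff.1 hz).le
  have key := eq_zero_disc (g := G) (s := s) (κ := 9 / 10 * Real.exp s) (by positivity)
    (by rw [mul_assoc, ← Real.exp_add]; norm_num) (fun y hy => ?_) ?_ (fun θ => ?_) fun p hp => ?_
  · have k1 : ∀ p : ℝ × ℝ, s < p.1 → g (pol p) = 0 ∧ μ p = 0 := fun p hp => by
      have h0 := key _ (ball_subset_closedBall (pol_mem_ball.2 hp))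
      have h1 := hgl p hp
      rcases le_total p.1 (s + 5) with h | h
      · rw [hA' p h, n1 p hp.le, neg_eq_zero] at h0
        rw [st_zero h, h0] at h1
        exact ⟨by linarith, h0⟩
      · rw [hB' p (by linarith)] at h0
        rw [st_one (a := s + 3) (by linarith), h0] at h1
        exact ⟨h0, by linarith⟩
    refine ⟨fun y hy => ?_, fun p hp => ?_⟩
    · refine EqOn.of_subset_closure (f := g) (g := fun _ => 0) (s := ball 0 (Real.exp (-s)))
        (fun z hz => ?_) (fun z hz => (hg z hz).continuousAt.continuousWithinAt) continuousOn_const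
        ball_subset_closedBall (closure_ball _ (Real.exp_pos _).ne').ge hy
      rcases eq_or_ne z 0 with rfl | h
      · exact (hB 0 (by rw [norm_zero]; exact (Real.exp_pos _).le)).symm.trans
          (key 0 (ball_subset_closedBall hz))
      · obtain ⟨p, rfl⟩ : ∃ p, pol p = z := ⟨_, pol_lp h⟩
        exact (k1 p (pol_mem_ball.1 hz)).1
    · rcases hp.eq_or_lt with h | h
      · rw [show p = (s, p.2) from Prod.ext h.symm rfl]; exact hb _
      · exact (k1 p h).2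
  · refine ContinuousAt.continuousWithinAt ?_
    rcases lt_or_ge ‖y‖ (Real.exp (-(s + 4))) with h | h
    · exact (hg y hy).continuousAt.congr (hB0 y h).symm
    · obtain ⟨p, rfl⟩ : ∃ p, pol p = y :=
        ⟨_, pol_lp (norm_pos_iff.1 ((Real.exp_pos _).trans_le h))⟩
      rw [norm_pol, Real.exp_le_exp] at h
      rw [ContinuousAt, ← map_pol_nhds, tendsto_map'_iff, hA' p (by linarith)]
      refine Tendsto.congr' ?_ n3.continuousAt
      filter_upwards [ev' (show p.1 < s + 5 by linarith)] with q hq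
      exact (hA' q hq.le).symm
  · exact ((hg 0 (mem_closedBall_self (Real.exp_pos _).le)).differentiableAt
      (by simp)).congr_of_eventuallyEq (hB0 0 (by rw [norm_zero]; exact Real.exp_pos _))
  · rw [hA' _ (by linarith), n1 _ le_rfl, hb, neg_zero]
  obtain ⟨e1, e2⟩ := ho.ell p hp
  have e3 : 0 < (o.a p 0).2.2.re := by
    by_contra h
    nlinarith [sq_nonneg (o.a p 0).2.1.re, mul_nonneg e1.le (neg_nonneg.2 (not_lt.1 h))]
  rcases lt_or_ge p.1 (s + 5) with h | h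
  · have e : (fun q => G (pol q)) =ᶠ[𝓝 p] fun q => -1 * μ q := by
      filter_upwards [ev hp, ev' h] with q h1 h2
      rw [hA' q h2.le, n1 q h1.le, neg_one_mul]
    have h1 := congrArg Complex.re (end_eq ho hp h.le (hu p hp) (hμ.eq p hp))
    rw [pj_ofReal (m2 p hp), Complex.add_re, re_pair, rh, ← Complex.ofReal_one,
      ← Complex.ofReal_sub, Complex.re_ofReal_mul, re_lin, Complex.zero_re] at h1
    have r0 := sub_nonneg.2 (st_le_one (s + 4) p.1)
    have r1 := st_nonneg (s + 4) p.1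
    refine ⟨(contDiffAt_const.mul (m2 p hp)).congr_of_eventuallyEq e, _, _, _,
      (1 - st (s + 4) p.1) * (fderiv ℂ (o.b p) 0 (0, 1, 0)).re,
      (1 - st (s + 4) p.1) * (fderiv ℂ (o.b p) 0 (0, 0, 1)).re,
      (1 - st (s + 4) p.1) * (fderiv ℂ (o.b p) 0 (1, 0, 0)).re, e1.le, e3.le, e2.le, ?_, ?_⟩
    · rw [lop_congr e]
      have h2 := cj_clm (d1 := ((1, 0) : ℝ × ℝ)) (d2 := (0, 1))
        ((-1 : ℝ) • ContinuousLinearMap.id ℝ ℝ) (m2 p hp)
      simp only [cj, jmap_apply, Prod.mk.injEq, smul_apply, ContinuousLinearMap.id_apply,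
        smul_eq_mul] at h2
      obtain ⟨⟨-, a1, a2⟩, a3, a4, a5⟩ := h2
      simp only [lop, dw, dth] at h1 ⊢
      rw [a1, a2, a3, a4, a5]
      linarith
    · obtain ⟨b1, b2⟩ := bar_num hp h.le
      have b3 := mul_nonpos_of_nonneg_of_nonpos r0 (ho.sup1 p hp)
      have b4 : (1 - st (s + 4) p.1) * (fderiv ℂ (o.b p) 0 (1, 0, 0)).re ≤
          (o.a p 0).1.re / 300 :=
        (mul_le_mul_of_nonneg_left (ho.sup0 p hp) r0).trans (by nlinarith)
      generalize 9 / 10 * Real.exp s * Real.exp (-p.1) = x at b1 b2 ⊢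
      nlinarith [mul_le_mul_of_nonneg_right b4 (sub_nonneg.2 b2.le), mul_pos e1 (sub_pos.2 b1),
        mul_nonneg (neg_nonneg.2 b3) (show 0 ≤ x by linarith), mul_pos e1 (show 0 < x by linarith)]
  · have e : (fun q => G (pol q)) =ᶠ[𝓝 p] fun q => g (pol q) := by
      filter_upwards [ev (show s + 4 < p.1 by linarith)] with q h1
      exact hB' q h1.le
    have h1 := congrArg Complex.re (eq_of_lin (c := 0) (hcol p (by linarith)) fun t => by
      rw [col_eq o h (hu p hp), zero_add, mul_left_comm, mul_left_comm _ t, ← mul_add])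
    have h3 : cj u1 u2 (fun y => (g y : ℂ)) (pol p) = _ := cj_clm Complex.ofRealCLM (g1 p hp)
    rw [pj_ofReal (g2 p hp), Complex.add_re, Complex.re_ofReal_mul, Complex.re_ofReal_mul, re_pair,
      h3, Complex.zero_re] at h1
    simp only [cj, jmap_apply, Complex.ofRealCLM_apply, Complex.add_re, Complex.ofReal_re] at h1
    have r0 := sub_nonneg.2 (st_le_one (s + 6) p.1)
    have r1 := st_nonneg (s + 6) p.1
    have r2 : 0 < Real.exp (-p.1) ^ 2 := by positivity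
    have l := lap_pol (g1 p hp)
    generalize st (s + 6) p.1 = σ at h1 r0 r1
    generalize Real.exp (-p.1) ^ 2 = r at r2 l
    have r3 := mul_nonneg r2.le r0
    have r4 : 0 < r * (1 - σ) * (o.a p 0).1.re + σ := by
      rcases r1.eq_or_lt with h2 | h2
      · rw [← h2]; nlinarith [mul_pos r2 e1]
      · nlinarith [mul_nonneg r3 e1.le]
    refine ⟨(g2 p hp).congr_of_eventuallyEq e, r * (1 - σ) * (o.a p 0).1.re + σ,
      r * (1 - σ) * (o.a p 0).2.1.re, r * (1 - σ) * (o.a p 0).2.2.re + σ, 0, 0, 0, r4.le,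
      by positivity, ?_, ?_, ?_⟩
    · nlinarith [mul_le_mul_of_nonneg_left e2.le (sq_nonneg (r * (1 - σ))),
        mul_nonneg (mul_nonneg r3 e1.le) r1, mul_nonneg (mul_nonneg r3 e3.le) r1, sq_nonneg σ]
    · rw [lop_congr e, lop]
      linear_combination r * h1 + σ * l
    · nlinarith [mul_pos r4 (show 0 < 9 / 10 * Real.exp s * Real.exp (-p.1) by positivity)]

end Vale.Agent.P218CD
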